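import Vale.Agent.P224.Gap.Glob.Measure
import Vale.Agent.P224.Gap.Defs
import Vale.Agent.P224.Jac

/-!
P224, uniform volume gap: the Gaussian density at a preimage of the centre is at least one.
-/

namespace Vale.Agent.P224.Gap.Glob

open Set Filter MeasureTheory
open scoped RealInnerProductSpace Topology ContDiff Matrix Manifold ENNReal

variable {m : ℕ}

theorem fderiv_eq_sum (f : E m → E (m + 2)) (p a : E m) :
    fderiv ℝ f p a = ∑ i, a i • D f i p := by
  have h : a = ∑ i, a i • EuclideanSpace.single i (1 : ℝ) := by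
    ext j; simp [Pi.single_apply]
  conv_lhs => rw [h]
  simp only [map_sum, map_smul]
  rfl

/-- The Gaussian integral of a positive quadratic form in `m + 1` variables. -/
theorem integral_gauss {f : E m → E (m + 2)} {p : E m} (hg : (metric f p).det ≠ 0) :
    ∫ z : E m × ℝ, (4 * Real.pi) ^ (-(((m : ℝ) + 1) / 2)) * volDensity f p *
      Real.exp (-(z.2 ^ 2 + ‖fderiv ℝ f p z.1‖ ^ 2) / 4) = 1 := by
  classical
  have hpd := metric_posDef hg
  obtain ⟨C, k, hC, -⟩ := exists_frame hpd.posSemidef hg Matrix.isHermitian_zero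
  have hdet : C.det ^ 2 * (metric f p).det = 1 := by
    have := congrArg Matrix.det hC
    rw [Matrix.det_mul, Matrix.det_mul, Matrix.det_transpose, Matrix.det_one] at this
    linear_combination this
  have hvol : volDensity f p * |C.det| = 1 := by
    rw [volDensity, ← Real.sqrt_sq_eq_abs, ← Real.sqrt_mul hpd.posSemidef.det_nonneg,
      mul_comm, hdet, Real.sqrt_one]
  set A : E m →ₗ[ℝ] E m := Matrix.toEuclideanLin C with hA
  have hAdet : LinearMap.det A = C.det := by
    simp [hA, Matrix.toLpLin_eq_toLin, LinearMap.det_toLin]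
  have hA0 : LinearMap.det A ≠ 0 := by
    rw [hAdet]
    exact fun h => by simp [h] at hdet
  have hnorm : ∀ η : E m, ‖fderiv ℝ f p (A η)‖ ^ 2 = ‖η‖ ^ 2 := fun η => by
    rw [fderiv_eq_sum, ← sum_metric]
    have e : (A η).ofLp = C *ᵥ η.ofLp := by simp [hA]
    rw [e, Matrix.dotProduct_mulVec,
      Matrix.vecMul_mulVec, ← Matrix.dotProduct_mulVec, Matrix.mulVec_mulVec, hC, Matrix.one_mulVec]
    rw [EuclideanSpace.real_norm_sq_eq]
    simp [dotProduct, sq]
  have hb : (0 : ℝ) < 1 / 4 := by norm_num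
  have h1 : ∫ x : E m, Real.exp (-(1 / 4) * ‖fderiv ℝ f p x‖ ^ 2) =
      |C.det| * (4 * Real.pi) ^ ((m : ℝ) / 2) := by
    have hmap := Measure.map_linearMap_addHaar_eq_smul_addHaar (volume : Measure (E m)) hA0
    have h := integral_map (μ := (volume : Measure (E m))) (φ := A)
      A.continuous_of_finiteDimensional.measurable.aemeasurable
      (f := fun x => Real.exp (-(1 / 4) * ‖fderiv ℝ f p x‖ ^ 2))
      (Continuous.aestronglyMeasurable (by fun_prop))
    rw [hmap, integral_smul_measure, ENNReal.toReal_ofReal (abs_nonneg _)] at h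
    simp only [hnorm] at h
    rw [GaussianFourier.integral_rexp_neg_mul_sq_norm hb, finrank_euclideanSpace_fin, abs_inv,
      hAdet, smul_eq_mul, show Real.pi / (1 / 4) = 4 * Real.pi by ring] at h
    rw [← h, mul_inv_cancel_left₀]
    exact abs_ne_zero.2 (hAdet ▸ hA0)
  have h2 : ∫ s : ℝ, Real.exp (-(1 / 4) * s ^ 2) = (4 * Real.pi) ^ ((1 : ℝ) / 2) := by
    rw [integral_gaussian, Real.sqrt_eq_rpow, show Real.pi / (1 / 4) = 4 * Real.pi by ring]
  have e : ∀ z : E m × ℝ, (4 * Real.pi) ^ (-(((m : ℝ) + 1) / 2)) * volDensity f p *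
      Real.exp (-(z.2 ^ 2 + ‖fderiv ℝ f p z.1‖ ^ 2) / 4) =
      ((4 * Real.pi) ^ (-(((m : ℝ) + 1) / 2)) * volDensity f p *
          Real.exp (-(1 / 4) * ‖fderiv ℝ f p z.1‖ ^ 2)) * Real.exp (-(1 / 4) * z.2 ^ 2) := fun z => by
    rw [mul_assoc (_ * _), ← Real.exp_add]
    congr 2
    ring
  simp only [e]
  rw [Measure.volume_eq_prod, integral_prod_mul (μ := (volume : Measure (E m)))
    (ν := (volume : Measure ℝ))
    (fun x => (4 * Real.pi) ^ (-(((m : ℝ) + 1) / 2)) * volDensity f p *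
      Real.exp (-(1 / 4) * ‖fderiv ℝ f p x‖ ^ 2)) (fun s => Real.exp (-(1 / 4) * s ^ 2)),
    integral_const_mul, h1, h2]
  calc (4 * Real.pi) ^ (-(((m : ℝ) + 1) / 2)) * volDensity f p *
        (|C.det| * (4 * Real.pi) ^ ((m : ℝ) / 2)) * (4 * Real.pi) ^ ((1 : ℝ) / 2)
      = (volDensity f p * |C.det|) * ((4 * Real.pi) ^ (-(((m : ℝ) + 1) / 2)) *
          (4 * Real.pi) ^ ((m : ℝ) / 2) * (4 * Real.pi) ^ ((1 : ℝ) / 2)) := by ring
    _ = 1 := by
      rw [hvol, one_mul, ← Real.rpow_add (by positivity), ← Real.rpow_add (by positivity),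
        show -(((m : ℝ) + 1) / 2) + (m : ℝ) / 2 + 1 / 2 = 0 by ring, Real.rpow_zero]

theorem phi_nonneg {σ : ℝ} (hσ : 0 < σ) (r t : ℝ) : 0 ≤ phi m σ r t := by
  unfold phi; positivity

theorem continuous_phi (σ : ℝ) : Continuous fun z : ℝ × ℝ => phi m σ z.1 z.2 := by
  unfold phi; fun_prop

/-- The radial majorant is integrable. -/
theorem integrable_major {σ : ℝ} (hσ : 0 < σ) :
    Integrable (fun r : ℝ => |r| ^ m * phi m σ r 1) := by
  have hb : 0 < 1 / (8 * σ) := by positivity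
  have h0 : Integrable fun r : ℝ => r ^ m * Real.exp (-(1 / (8 * σ)) * r ^ 2) := by
    simpa only [Real.rpow_natCast] using
      integrable_rpow_mul_exp_neg_mul_sq hb (s := (m : ℝ))
        (lt_of_lt_of_le neg_one_lt_zero (Nat.cast_nonneg m))
  refine (h0.norm.const_mul ((4 * Real.pi * σ) ^ (-(((m : ℝ) + 1) / 2)) *
    Real.exp (1 / (4 * σ)))).mono' (Continuous.aestronglyMeasurable ?_)
    (Eventually.of_forall fun r => ?_)
  · exact (continuous_abs.pow m).mul ((continuous_phi σ).comp (continuous_id.prodMk continuous_const))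
  · rw [Real.norm_of_nonneg (mul_nonneg (by positivity) (phi_nonneg hσ _ _)), norm_mul, norm_pow,
      Real.norm_eq_abs, Real.norm_of_nonneg (Real.exp_pos _).le, phi]
    have : -(r ^ 2 - 2 * r * 1 + 1) / (4 * σ) ≤ 1 / (4 * σ) + -(1 / (8 * σ)) * r ^ 2 := by
      rw [show 1 / (4 * σ) + -(1 / (8 * σ)) * r ^ 2 = (1 - r ^ 2 / 2) / (4 * σ) by field_simp; ring]
      exact div_le_div_of_nonneg_right (by nlinarith [sq_nonneg (r - 2)]) (by positivity)
    calc |r| ^ m * ((4 * Real.pi * σ) ^ (-(((m : ℝ) + 1) / 2)) *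
          Real.exp (-(r ^ 2 - 2 * r * 1 + 1) / (4 * σ)))
        ≤ |r| ^ m * ((4 * Real.pi * σ) ^ (-(((m : ℝ) + 1) / 2)) *
          Real.exp (1 / (4 * σ) + -(1 / (8 * σ)) * r ^ 2)) := by gcongr
      _ = _ := by rw [Real.exp_add]; ring

variable {M : Type} [TopologicalSpace M] [ChartedSpace (E m) M] [MeasurableSpace M] [BorelSpace M]
  [IsManifold (𝓡 m) ∞ M] {F : M → E (m + 2)}

/-- Lower bound for the Gaussian density. -/
theorem density_ge (hF : IsMinimalImmersion F) {μ : Measure M} [IsFiniteMeasure μ]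
    (hμ : ∀ x : M, μ.restrict (chartAt (E m) x).source = chartMeasure F x) {x₀ : E (m + 2)}
    (hx₀ : ‖x₀‖ = 1) {y : M} (hy : ⟪F y, x₀⟫ = 1) {W : Set M} (hW : IsOpen W) (hyW : y ∈ W)
    {η : ℝ} (hη : 0 < η) :
    ∀ᶠ σ in 𝓝[>] (0 : ℝ), 1 - η ≤ ∫ z : M × ℝ, z.2 ^ m * phi m σ z.2 ⟪F z.1, x₀⟫ *
      W.indicator (fun _ => (1 : ℝ)) z.1 ∂μ.prod (volume.restrict (Ioi 0)) := by
  classical
  set c := chartAt (E m) y with hc
  set f := rep F y with hfdef
  set p₀ := c y
  set T := c.target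
  have hFy : F y = x₀ := by
    have := norm_sub_sq_real (F y) x₀
    rw [hF.sphere, hx₀, hy] at this
    exact sub_eq_zero.1 (norm_eq_zero.1 (pow_eq_zero_iff two_ne_zero |>.1 (by linarith)))
  have hf0 : f p₀ = x₀ := by simp [hfdef, rep, p₀, c, hFy]
  have hp0 : p₀ ∈ T := mem_chart_target (E m) y
  set O := T ∩ c.symm ⁻¹' W with hOdef
  have hO : IsOpen O := c.isOpen_inter_preimage_symm hW
  have hp0O : p₀ ∈ O := ⟨hp0, by show c.symm (c y) ∈ W; rwa [c.left_inv (mem_chart_source (E m) y)]⟩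
  have hvn : ∀ p, 0 ≤ volDensity f p := fun p => Real.sqrt_nonneg _
  have hfc : ContinuousOn f T := (contDiffOn_rep hF y).continuousOn
  have hvc : ContinuousOn (volDensity f) T := continuousOn_volDensity hF y
  set Q : Set (E m × ℝ) := O ×ˢ Ioi 0 with hQdef
  have hQ : IsOpen Q := hO.prod isOpen_Ioi
  set R : ℝ → E m × ℝ → ℝ := fun σ q =>
    volDensity f q.1 * (q.2 ^ m * phi m σ q.2 ⟪f q.1, x₀⟫) with hR
  set H : ℝ → E m × ℝ → ℝ≥0∞ := fun σ q => ENNReal.ofReal (Q.piecewise (R σ) 0 q) with hH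
  have hHm : ∀ σ, Measurable (H σ) := fun σ => by
    have h1 : ContinuousOn (fun q : E m × ℝ => f q.1) Q :=
      hfc.comp continuous_fst.continuousOn fun q hq => hq.1.1
    have h2 : ContinuousOn (fun q : E m × ℝ => volDensity f q.1) Q :=
      hvc.comp continuous_fst.continuousOn fun q hq => hq.1.1
    exact ((h2.mul ((continuous_snd.continuousOn.pow m).mul ((continuous_phi σ).comp_continuousOn
      (continuous_snd.continuousOn.prodMk (h1.inner continuousOn_const))))).measurable_piecewise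
      continuousOn_const hQ.measurableSet).ennreal_ofReal
  set J : ℝ → M × ℝ → ℝ := fun σ z =>
    z.2 ^ m * phi m σ z.2 ⟪F z.1, x₀⟫ * W.indicator (fun _ => (1 : ℝ)) z.1 with hJ
  set π' := μ.prod (volume.restrict (Ioi (0 : ℝ)))
  have hJm : ∀ σ, Measurable (J σ) := fun σ =>
    (((continuous_snd.pow m).mul ((continuous_phi σ).comp (continuous_snd.prodMk
      ((hF.smooth.continuous.comp continuous_fst).inner continuous_const)))).measurable).mul
      ((measurable_const.indicator hW.measurableSet).comp measurable_fst)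
  have hae : ∀ᵐ z ∂π', 0 < z.2 :=
    Measure.quasiMeasurePreserving_snd.ae (ae_restrict_mem measurableSet_Ioi)
  have hJ0 : ∀ σ, 0 < σ → ∀ z : M × ℝ, 0 < z.2 → 0 ≤ J σ z := fun σ hσ z hz =>
    mul_nonneg (mul_nonneg (by positivity) (phi_nonneg hσ _ _))
      (indicator_nonneg (fun _ _ => zero_le_one) _)
  have hJint : ∀ σ, 0 < σ → Integrable (J σ) π' := fun σ hσ => by
    refine (((integrable_major (m := m) hσ).restrict (s := Ioi 0)).comp_snd μ).mono'
      (hJm σ).aestronglyMeasurable ?_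
    filter_upwards [hae] with z hz
    rw [Real.norm_of_nonneg (hJ0 σ hσ z hz), abs_of_pos hz]
    have ht : ⟪F z.1, x₀⟫ ≤ 1 := by
      simpa [hF.sphere, hx₀] using real_inner_le_norm (F z.1) x₀
    calc J σ z ≤ z.2 ^ m * phi m σ z.2 ⟪F z.1, x₀⟫ * 1 := by
          refine mul_le_mul_of_nonneg_left ?_ (mul_nonneg (by positivity) (phi_nonneg hσ _ _))
          exact indicator_apply_le' (fun _ => le_rfl) (fun _ => zero_le_one)
      _ ≤ z.2 ^ m * phi m σ z.2 1 := by
          rw [mul_one]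
          refine mul_le_mul_of_nonneg_left ?_ (by positivity)
          simp only [phi]
          gcongr
  have stepA : ∀ σ, 0 < σ → ∫⁻ q, H σ q ≤ ENNReal.ofReal (∫ z, J σ z ∂π') := fun σ hσ => by
    rw [ofReal_integral_eq_lintegral_ofReal (hJint σ hσ) (hae.mono fun z hz => hJ0 σ hσ z hz),
      lintegral_prod_symm _ (hJm σ).ennreal_ofReal.aemeasurable, Measure.volume_eq_prod,
      lintegral_prod_symm _ (hHm σ).aemeasurable]
    have hsupp : (Function.support fun r : ℝ => ∫⁻ p : E m, H σ (p, r)) ⊆ Ioi 0 := fun r hr => by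
      by_contra hr0
      refine hr ?_
      have hr1 : ¬(0 < r) := hr0
      simp [hH, hQdef, Set.piecewise, hr1]
    rw [← setLIntegral_eq_of_support_subset hsupp]
    refine setLIntegral_mono' measurableSet_Ioi fun r hr => ?_
    refine le_trans ?_ (setLIntegral_le_lintegral (chartAt (E m) y).source _)
    rw [lintegral_source hF (hμ y)
      (h := fun x => ENNReal.ofReal (J σ (x, r)))
      (((hJm σ).comp (measurable_id.prodMk measurable_const)).ennreal_ofReal),
      ← lintegral_indicator (chartAt (E m) y).open_target.measurableSet]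
    refine lintegral_mono fun p => ?_
    by_cases hp : p ∈ O
    · rw [indicator_of_mem hp.1]
      have hpW : c.symm p ∈ W := hp.2
      simp only [hH, hQdef, Set.piecewise, mem_prod, hp, hr, and_self, if_true, hR, dens,
        hJ, ← hfdef]
      rw [← ENNReal.ofReal_mul (hvn p), indicator_of_mem hpW, mul_one]
      exact le_rfl
    · simp [hH, hQdef, Set.piecewise, hp]
  -- scaling
  set Z : ℝ → E m × ℝ → E m × ℝ := fun σ z => ((p₀, (1 : ℝ)) : E m × ℝ) + √σ • z with hZ
  set L : ℝ → E m × ℝ → ℝ≥0∞ := fun σ z => ENNReal.ofReal (√σ ^ (m + 1)) * H σ (Z σ z) with hL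
  have hLm : ∀ σ, Measurable (L σ) := fun σ =>
    measurable_const.mul ((hHm σ).comp (Continuous.measurable (by fun_prop)))
  have stepC : ∀ σ, 0 < σ → ∫⁻ z, L σ z = ∫⁻ q, H σ q := fun σ hσ => by
    have hs : 0 < √σ := Real.sqrt_pos.2 hσ
    have : (volume : Measure (E m × ℝ)).IsAddHaarMeasure := by
      rw [Measure.volume_eq_prod]; infer_instance
    have h := lintegral_map (μ := (volume : Measure (E m × ℝ)))
      (f := fun q => H σ ((p₀, (1 : ℝ)) + q)) ((hHm σ).comp (measurable_const_add _))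
      (measurable_const_smul (√σ))
    rw [Measure.map_addHaar_smul volume hs.ne', lintegral_smul_measure,
      lintegral_add_left_eq_self (μ := (volume : Measure (E m × ℝ))) (fun q => H σ q) _] at h
    simp only [hL, hZ]
    rw [lintegral_const_mul' _ _ ENNReal.ofReal_ne_top, ← h, smul_eq_mul,
      ← mul_assoc, ← ENNReal.ofReal_mul (by positivity), Module.finrank_prod,
      finrank_euclideanSpace_fin, Module.finrank_self, abs_of_pos (by positivity),
      mul_inv_cancel₀ (by positivity), ENNReal.ofReal_one, one_mul]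
  -- limit
  set ℓ : E m × ℝ → ℝ := fun z => (4 * Real.pi) ^ (-(((m : ℝ) + 1) / 2)) * volDensity f p₀ *
      Real.exp (-(z.2 ^ 2 + ‖fderiv ℝ f p₀ z.1‖ ^ 2) / 4)
  have hlim : ∀ z, Tendsto (fun σ => L σ z) (𝓝[>] 0) (𝓝 (ENNReal.ofReal (ℓ z))) := fun z => by
    have hs : Tendsto (fun σ : ℝ => √σ) (𝓝[>] 0) (𝓝[>] 0) := by
      refine tendsto_nhdsWithin_iff.2 ⟨?_, eventually_nhdsWithin_of_forall fun σ hσ =>
        Real.sqrt_pos.2 hσ⟩
      simpa using (Real.continuous_sqrt.tendsto 0).mono_left nhdsWithin_le_nhds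
    have hs0 := hs.mono_right nhdsWithin_le_nhds
    have hZ0 : Tendsto (fun σ => Z σ z) (𝓝[>] 0) (𝓝 (p₀, 1)) := by
      simpa [hZ] using ((hs0.smul_const z).const_add ((p₀, (1 : ℝ)) : E m × ℝ))
    have hev : ∀ᶠ σ in 𝓝[>] (0 : ℝ), Z σ z ∈ Q :=
      hZ0.eventually (hQ.mem_nhds ⟨hp0O, zero_lt_one' ℝ⟩)
    have hslope : Tendsto (fun σ : ℝ => (√σ)⁻¹ • (f (p₀ + √σ • z.1) - x₀)) (𝓝[>] 0)
        (𝓝 (fderiv ℝ f p₀ z.1)) := by
      have hd : HasDerivAt (fun τ : ℝ => f (p₀ + τ • z.1)) (fderiv ℝ f p₀ z.1) 0 := by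
        have hl : HasDerivAt (fun τ : ℝ => p₀ + τ • z.1) z.1 0 :=
          (((hasDerivAt_id (0 : ℝ)).smul_const z.1).const_add p₀).congr_deriv (one_smul _ _)
        have hfd : HasFDerivAt f (fderiv ℝ f p₀) ((fun τ : ℝ => p₀ + τ • z.1) 0) := by
          simpa using (diffAt (chartAt (E m) y).open_target (contDiffOn_rep hF y) hp0).hasFDerivAt
        exact hfd.comp_hasDerivAt 0 hl
      have h := (hasDerivAt_iff_tendsto_slope.1 hd).comp
        (hs.mono_right (nhdsWithin_mono _ fun τ (hτ : 0 < τ) => hτ.ne'))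
      simpa [slope_def_module, Function.comp_def, hf0] using h
    have hcont : Tendsto (fun σ : ℝ => (4 * Real.pi) ^ (-(((m : ℝ) + 1) / 2)) *
        (volDensity f (Z σ z).1 * (Z σ z).2 ^ m *
          Real.exp (-(z.2 ^ 2 + (Z σ z).2 * ‖(√σ)⁻¹ • (f (p₀ + √σ • z.1) - x₀)‖ ^ 2) / 4)))
        (𝓝[>] 0) (𝓝 (ℓ z)) := by
      have hv := ((hvc.continuousAt (c.open_target.mem_nhds hp0)).tendsto).comp hZ0.fst_nhds
      have := ((hv.mul (hZ0.snd_nhds.pow m)).mul ((((hZ0.snd_nhds.mul (hslope.norm.pow 2)).const_add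
        (z.2 ^ 2)).neg.div_const 4).rexp)).const_mul ((4 * Real.pi) ^ (-(((m : ℝ) + 1) / 2)))
      simpa [ℓ, mul_assoc] using this
    refine ((ENNReal.tendsto_ofReal hcont).congr' ?_)
    filter_upwards [hev, self_mem_nhdsWithin] with σ hq (hσ : 0 < σ)
    simp only [hL, hH, Set.piecewise, hq, if_true, hR]
    rw [← ENNReal.ofReal_mul (by positivity)]
    congr 1
    have hp : (Z σ z).1 = p₀ + √σ • z.1 := rfl
    have hr : (Z σ z).2 = 1 + √σ * z.2 := rfl
    rw [hp, hr]
    have hsq : √σ ^ (m + 1) * (4 * Real.pi * σ) ^ (-(((m : ℝ) + 1) / 2)) =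
        (4 * Real.pi) ^ (-(((m : ℝ) + 1) / 2)) := by
      rw [Real.mul_rpow (by positivity) hσ.le, Real.sqrt_eq_rpow, ← Real.rpow_natCast (σ ^ _),
        ← Real.rpow_mul hσ.le, mul_left_comm, ← Real.rpow_add hσ,
        show 1 / 2 * ((m + 1 : ℕ) : ℝ) + -(((m : ℝ) + 1) / 2) = 0 by push_cast; ring,
        Real.rpow_zero, mul_one]
    have hfn : ‖f (p₀ + √σ • z.1)‖ = 1 := hF.sphere _
    have hexp : -((1 + √σ * z.2) ^ 2 - 2 * (1 + √σ * z.2) * ⟪f (p₀ + √σ • z.1), x₀⟫ + 1) /
        (4 * σ) = -(z.2 ^ 2 + (1 + √σ * z.2) *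
          ‖(√σ)⁻¹ • (f (p₀ + √σ • z.1) - x₀)‖ ^ 2) / 4 := by
      rw [norm_smul, mul_pow, Real.norm_eq_abs, sq_abs, inv_pow, Real.sq_sqrt hσ.le,
        norm_sub_sq_real, hfn, hx₀]
      field_simp
      have hss := Real.sq_sqrt hσ.le
      linear_combination -(z.2 ^ 2) * hss
    simp only [phi]
    rw [hexp, ← hsq]
    ring
  have hgauss : ∫⁻ z, ENNReal.ofReal (ℓ z) = 1 := by
    have h1 : ∫ z, ℓ z = 1 := integral_gauss (hF.immersion y _ hp0)
    rw [← ofReal_integral_eq_lintegral_ofReal (Integrable.of_integral_ne_zero (by rw [h1]; exact one_ne_zero))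
      (Eventually.of_forall fun z => by simp only [ℓ]; have := hvn p₀; positivity), h1,
      ENNReal.ofReal_one]
  have hfatou : 1 ≤ liminf (fun σ => ∫⁻ z, L σ z) (𝓝[>] 0) := by
    rw [← hgauss]
    refine le_trans (le_of_eq ?_) (lintegral_liminf_le hLm)
    exact lintegral_congr fun z => ((hlim z).liminf_eq).symm
  filter_upwards [eventually_lt_of_lt_liminf (lt_of_lt_of_le
    (show ENNReal.ofReal (1 - η) < 1 by simpa using hη) hfatou), self_mem_nhdsWithin]
    with σ h (hσ : 0 < σ)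
  rw [stepC σ hσ] at h
  exact (ENNReal.ofReal_lt_ofReal_iff'.1 (h.trans_le (stepA σ hσ))).1.le

end Vale.Agent.P224.Gap.Glob
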