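import Vale.Agent.P224.Gap.ChartDefs
import Vale.Agent.P224.MaxPoint

/-!
P224, uniform volume gap: gradient and Laplacian at one point of one chart (locality, chain rule,
maximum principle).
-/

namespace Vale.Agent.P224.Gap.Glob

open Set Filter
open scoped RealInnerProductSpace Topology ContDiff Matrix

variable {m : ℕ} {U : Set (E m)} {f f' : E m → E (m + 2)} {p : E m}

theorem D_congr_nhds {W : Type*} [NormedAddCommGroup W] [NormedSpace ℝ W] {g h : E m → W}
    (e : g =ᶠ[𝓝 p] h) (i : Fin m) : D g i p = D h i p := by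
  simp only [D, e.fderiv_eq]

theorem D_congr_ev {W : Type*} [NormedAddCommGroup W] [NormedSpace ℝ W] {g h : E m → W}
    (e : g =ᶠ[𝓝 p] h) (i : Fin m) : D g i =ᶠ[𝓝 p] D h i :=
  e.eventuallyEq_nhds.mono fun _ hy => D_congr_nhds hy i

theorem metric_congr (e : f =ᶠ[𝓝 p] f') : metric f p = metric f' p := by
  ext i j
  simp only [metric, Matrix.of_apply, D_congr_nhds e]

theorem volDensity_congr (e : f =ᶠ[𝓝 p] f') : volDensity f p = volDensity f' p := by
  rw [volDensity, volDensity, metric_congr e]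

theorem DD_congr {W : Type*} [NormedAddCommGroup W] [NormedSpace ℝ W] {g h : E m → W}
    (e : g =ᶠ[𝓝 p] h) (i j : Fin m) : D (D g i) j p = D (D h i) j p :=
  D_congr_nhds (D_congr_ev e i) j

theorem normSq_congr (e : f =ᶠ[𝓝 p] f') (ν : E (m + 2)) : normSq f p ν = normSq f' p ν := by
  have : secondForm f p ν = secondForm f' p ν := by
    ext i j
    simp only [secondForm, Matrix.of_apply, DD_congr e]
  rw [normSq, normSq, shapeOp, shapeOp, metric_congr e, this]

theorem isUnitNormal_congr (e : f =ᶠ[𝓝 p] f') (ν : E (m + 2)) :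
    IsUnitNormal f p ν ↔ IsUnitNormal f' p ν := by
  simp only [IsUnitNormal, e.eq_of_nhds, D_congr_nhds e]

theorem gradU_congr {u u' w w' : E m → ℝ} (e : f =ᶠ[𝓝 p] f') (eu : u =ᶠ[𝓝 p] u')
    (ew : w =ᶠ[𝓝 p] w') : gradU f u w p = gradU f' u' w' p := by
  simp only [gradU, metric_congr e, D_congr_nhds eu, D_congr_nhds ew]

theorem lapU_congr {u u' : E m → ℝ} (e : f =ᶠ[𝓝 p] f') (eu : u =ᶠ[𝓝 p] u') :
    lapU f u p = lapU f' u' p := by
  simp only [lapU, metric_congr e, D_congr_nhds eu, DD_congr eu, DD_congr e, D_congr_nhds e]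

theorem metric_inv_symm (i j : Fin m) : (metric f p)⁻¹ i j = (metric f p)⁻¹ j i := by
  have h : (metric f p).IsSymm := by
    ext a b
    simp [metric, real_inner_comm]
  exact (h.inv.apply j i)

theorem gradU_symm (u w : E m → ℝ) : gradU f u w p = gradU f w u p := by
  unfold gradU
  rw [Finset.sum_comm]
  exact Finset.sum_congr rfl fun i _ => Finset.sum_congr rfl fun j _ => by
    rw [metric_inv_symm]; ring

theorem gradU_self_nonneg (hg : (metric f p).det ≠ 0) (u : E m → ℝ) : 0 ≤ gradU f u u p := by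
  have h := (metric_posDef hg).inv.posSemidef.dotProduct_mulVec_nonneg (fun i => D u i p)
  simpa [gradU, dotProduct, Matrix.mulVec, Finset.mul_sum, mul_comm, mul_assoc, mul_left_comm]
    using h

theorem sum_inv_swap (a b : Fin m → ℝ) :
    ∑ i, ∑ j, (metric f p)⁻¹ i j * (a j * b i) = ∑ i, ∑ j, (metric f p)⁻¹ i j * (a i * b j) := by
  rw [Finset.sum_comm]
  exact Finset.sum_congr rfl fun i _ => Finset.sum_congr rfl fun j _ => by rw [metric_inv_symm]

theorem D_pair (K : ℝ × ℝ → ℝ) (hK : ContDiff ℝ ∞ K) (hU : IsOpen U) {u w : E m → ℝ}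
    (hu : ContDiffOn ℝ ∞ u U) (hw : ContDiffOn ℝ ∞ w U) (hp : p ∈ U) (i : Fin m) :
    D (fun y => K (u y, w y)) i p = fderiv ℝ K (u p, w p) (D u i p, D w i p) := by
  have h := ((hK.differentiable (by simp)) (u p, w p)).hasFDerivAt.comp p
    ((diffAt hU hu hp).hasFDerivAt.prodMk (diffAt hU hw hp).hasFDerivAt)
  unfold D
  rw [show (fun y => K (u y, w y)) = K ∘ fun y => (u y, w y) from rfl, h.fderiv]
  rfl

theorem pair_eq (a b : ℝ) : (a, b) = a • ((1 : ℝ), (0 : ℝ)) + b • ((0 : ℝ), (1 : ℝ)) := by simp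

theorem gradU_comp (K : ℝ × ℝ → ℝ) (hK : ContDiff ℝ ∞ K) (hU : IsOpen U) {u w : E m → ℝ}
    (hu : ContDiffOn ℝ ∞ u U) (hw : ContDiffOn ℝ ∞ w U) (z : E m → ℝ) (hp : p ∈ U) :
    gradU f (fun y => K (u y, w y)) z p =
      fderiv ℝ K (u p, w p) (1, 0) * gradU f u z p + fderiv ℝ K (u p, w p) (0, 1) * gradU f w z p := by
  unfold gradU
  simp only [Finset.mul_sum, ← Finset.sum_add_distrib]
  refine Finset.sum_congr rfl fun i _ => Finset.sum_congr rfl fun j _ => ?_
  rw [D_pair K hK hU hu hw hp i, pair_eq (D u i p), map_add, map_smul, map_smul]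
  simp only [smul_eq_mul]
  ring

theorem DD_pair (K : ℝ × ℝ → ℝ) (hK : ContDiff ℝ ∞ K) (hU : IsOpen U) {u w : E m → ℝ}
    (hu : ContDiffOn ℝ ∞ u U) (hw : ContDiffOn ℝ ∞ w U) (hp : p ∈ U) (i j : Fin m) :
    D (D (fun y => K (u y, w y)) i) j p =
      fderiv ℝ (fderiv ℝ K) (u p, w p) (D u j p, D w j p) (D u i p, D w i p) +
        fderiv ℝ K (u p, w p) (D (D u i) j p, D (D w i) j p) := by
  have e : D (fun y => K (u y, w y)) i =ᶠ[𝓝 p]
      fun y => fderiv ℝ K (u y, w y) (D u i y, D w i y) := by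
    filter_upwards [hU.mem_nhds hp] with y hy using D_pair K hK hU hu hw hy i
  have h1 := (((hK.fderiv_right (m := ∞) (by simp)).differentiable (by simp)) (u p, w p)).hasFDerivAt.comp p
    ((diffAt hU hu hp).hasFDerivAt.prodMk (diffAt hU hw hp).hasFDerivAt)
  have h2 := (diffAt hU (D_smooth hU hu i) hp).hasFDerivAt.prodMk
    (diffAt hU (D_smooth hU hw i) hp).hasFDerivAt
  rw [D_congr_nhds e]
  simp only [D]
  rw [show (fun y => (fderiv ℝ K (u y, w y)) (fderiv ℝ u y (EuclideanSpace.single i 1),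
      fderiv ℝ w y (EuclideanSpace.single i 1))) = fun y =>
      ((fderiv ℝ K ∘ fun y => (u y, w y)) y) (D u i y, D w i y) from rfl, (h1.clm_apply h2).fderiv]
  simp [D, add_comm]

theorem lapU_comp (K : ℝ × ℝ → ℝ) (hK : ContDiff ℝ ∞ K) (hU : IsOpen U) {u w : E m → ℝ}
    (hu : ContDiffOn ℝ ∞ u U) (hw : ContDiffOn ℝ ∞ w U) (hp : p ∈ U) :
    lapU f (fun y => K (u y, w y)) p =
      fderiv ℝ K (u p, w p) (1, 0) * lapU f u p + fderiv ℝ K (u p, w p) (0, 1) * lapU f w p
      + iteratedFDeriv ℝ 2 K (u p, w p) ![(1, 0), (1, 0)] * gradU f u u p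
      + 2 * iteratedFDeriv ℝ 2 K (u p, w p) ![(1, 0), (0, 1)] * gradU f u w p
      + iteratedFDeriv ℝ 2 K (u p, w p) ![(0, 1), (0, 1)] * gradU f w w p := by
  have hsym : fderiv ℝ (fderiv ℝ K) (u p, w p) (0, 1) (1, 0) =
      fderiv ℝ (fderiv ℝ K) (u p, w p) (1, 0) (0, 1) :=
    ((hK.contDiffAt).isSymmSndFDerivAt (by
      simp only [minSmoothness_of_isRCLikeNormedField]; exact WithTop.coe_le_coe.mpr le_top)).eq _ _
  simp only [iteratedFDeriv_two_apply, Matrix.cons_val_zero, Matrix.cons_val_one]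
  set A := fderiv ℝ (fderiv ℝ K) (u p, w p) (1, 0) (1, 0)
  set B := fderiv ℝ (fderiv ℝ K) (u p, w p) (1, 0) (0, 1) with hB
  set C := fderiv ℝ (fderiv ℝ K) (u p, w p) (0, 1) (0, 1)
  set a := fderiv ℝ K (u p, w p) (1, 0) with ha
  set b := fderiv ℝ K (u p, w p) (0, 1) with hb
  set g := (metric f p)⁻¹ with hg
  have key : ∀ i j, g i j * (D (D (fun y => K (u y, w y)) i) j p - ∑ k, ∑ l,
        ⟪D (D f i) j p, D f k p⟫ * g k l * D (fun y => K (u y, w y)) l p) =
      a * (g i j * (D (D u i) j p - ∑ k, ∑ l, ⟪D (D f i) j p, D f k p⟫ * g k l * D u l p))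
      + b * (g i j * (D (D w i) j p - ∑ k, ∑ l, ⟪D (D f i) j p, D f k p⟫ * g k l * D w l p))
      + A * (g i j * (D u i p * D u j p)) + B * (g i j * (D u i p * D w j p))
      + B * (g i j * (D u j p * D w i p)) + C * (g i j * (D w i p * D w j p)) := by
    intro i j
    have h1 : ∀ s t : ℝ, fderiv ℝ K (u p, w p) (s, t) = a * s + b * t := fun s t => by
      rw [pair_eq s, map_add, map_smul, map_smul, ← ha, ← hb]; simp [mul_comm]
    simp only [DD_pair K hK hU hu hw hp i j, D_pair K hK hU hu hw hp, h1]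
    rw [pair_eq (D u i p), pair_eq (D u j p)]
    simp only [map_add, map_smul, FunLike.coe_add, Pi.add_apply, FunLike.coe_smul, Pi.smul_apply,
      smul_eq_mul, hsym, ← hB]
    simp only [mul_sub, mul_add, Finset.mul_sum, Finset.sum_add_distrib]
    simp only [mul_comm, mul_assoc, mul_left_comm]
    ring
  unfold lapU gradU
  simp only [← hg]
  rw [Finset.sum_congr rfl fun i _ => Finset.sum_congr rfl fun j _ => key i j]
  simp only [Finset.sum_add_distrib, ← Finset.mul_sum]
  rw [hg, sum_inv_swap (fun i => D u i p) (fun i => D w i p)]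
  ring

theorem gradU_sum {ι : Type*} (s : Finset ι) (hU : IsOpen U) {u : ι → E m → ℝ}
    (hu : ∀ k, ContDiffOn ℝ ∞ (u k) U) (w : E m → ℝ) (hp : p ∈ U) :
    gradU f (fun y => ∑ k ∈ s, u k y) w p = ∑ k ∈ s, gradU f (u k) w p := by
  have hD : ∀ i, D (fun y => ∑ k ∈ s, u k y) i p = ∑ k ∈ s, D (u k) i p := fun i => by
    simp only [D]
    rw [fderiv_fun_sum fun k _ => diffAt hU (hu k) hp]
    simp
  unfold gradU
  simp only [hD, Finset.sum_mul, Finset.mul_sum]
  symm
  rw [Finset.sum_comm]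
  exact Finset.sum_congr rfl fun i _ => Finset.sum_comm

theorem gradU_eq_zero {u : E m → ℝ} (e : u =ᶠ[𝓝 p] fun _ => 0) (w : E m → ℝ) :
    gradU f u w p = 0 := by
  have : ∀ i, D u i p = 0 := fun i => by rw [D_congr_nhds e]; simp [D]
  simp [gradU, this]

theorem DD_comm' {u : E m → ℝ} (hU : IsOpen U) (hu : ContDiffOn ℝ ∞ u U)
    (hp : p ∈ U) (i j : Fin m) : D (D u i) j p = D (D u j) i p := by
  have h : ∀ i j, D (D u i) j p =
      fderiv ℝ (fderiv ℝ u) p (EuclideanSpace.single j 1) (EuclideanSpace.single i 1) := by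
    intro i j
    unfold D
    rw [fderiv_clm_apply (diffAt hU (hu.fderiv_of_isOpen hU (m := ∞) (by simp)) hp)
      (differentiableAt_const _)]
    simp
  rw [h, h]
  exact ((hu.contDiffAt (hU.mem_nhds hp)).isSymmSndFDerivAt
    (by simp only [minSmoothness_of_isRCLikeNormedField]; exact WithTop.coe_le_coe.mpr le_top)).eq _ _

theorem lapU_nonpos_of_isLocalMax (hU : IsOpen U) (hg : (metric f p).det ≠ 0) {u : E m → ℝ}
    (hu : ContDiffOn ℝ ∞ u U) (hp : p ∈ U) (hmax : IsLocalMax u p) : lapU f u p ≤ 0 := by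
  set e : E (m + 2) := EuclideanSpace.single 0 1
  have he : ⟪e, e⟫ = 1 := by simp [e]
  set h : E m → E (m + 2) := fun y => u y • e with hh
  have hs : ContDiffOn ℝ ∞ h U := hu.smul contDiffOn_const
  have h1 : ∀ (i : Fin m), ∀ y ∈ U, D h i y = D u i y • e := fun i y hy => by
    simp only [D, hh]
    rw [fderiv_smul_const (diffAt hU hu hy)]
    rfl
  have h2 : ∀ i j, D (D h i) j p = D (D u i) j p • e := fun i j => by
    rw [D_congr_nhds (eventuallyEq_of_mem (hU.mem_nhds hp) (h1 i)) j]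
    show fderiv ℝ (fun y => D u i y • e) p (EuclideanSpace.single j 1) = _
    rw [fderiv_smul_const (diffAt hU (D_smooth hU hu i) hp)]
    rfl
  have hess : ∀ a : Fin m → ℝ, ∑ i, ∑ j, a i * (a j * D (D u i) j p) ≤ 0 := fun a => by
    have := hessian_nonpos hU hs hp (q := e) (by
      simpa only [hh, real_inner_smul_left, he, mul_one] using hmax) a
    simpa only [h2, real_inner_smul_left, he, mul_one] using this
  have h0 : ∀ l, D u l p = 0 := fun l => by simp [D, hmax.fderiv_eq_zero]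
  set P : Matrix (Fin m) (Fin m) ℝ := Matrix.of fun i j => -D (D u i) j p with hPdef
  have hP : P.PosSemidef := by
    refine Matrix.PosSemidef.of_dotProduct_mulVec_nonneg ?_ fun a => ?_
    · refine Matrix.IsHermitian.ext fun i j => ?_
      simp [hPdef, DD_comm' hU hu hp i j]
    · have := hess a
      simp only [hPdef, dotProduct, Matrix.mulVec, Matrix.of_apply, star_trivial, Finset.mul_sum,
        neg_mul, mul_neg, Finset.sum_neg_distrib, Left.nonneg_neg_iff]
      simpa [mul_comm, mul_assoc, mul_left_comm] using this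
  have ht := trace_inv_mul_nonneg (metric_posDef hg) hP
  have e1 : ((metric f p)⁻¹ * P).trace = -lapU f u p := by
    simp only [lapU, h0, mul_zero, Finset.sum_const_zero, sub_zero, Matrix.trace, Matrix.diag,
      Matrix.mul_apply, hPdef, Matrix.of_apply, ← Finset.sum_neg_distrib, ← mul_neg]
    refine Finset.sum_congr rfl fun i _ => Finset.sum_congr rfl fun j _ => ?_
    rw [DD_comm' hU hu hp i j]
  linarith

theorem continuousOn_metric_inv (hU : IsOpen U) (hf : ContDiffOn ℝ ∞ f U)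
    (hg : ∀ y ∈ U, (metric f y).det ≠ 0) (i j : Fin m) :
    ContinuousOn (fun y => (metric f y)⁻¹ i j) U := by
  have hM : ContinuousOn (fun y => metric f y) U :=
    continuousOn_pi.2 fun a => continuousOn_pi.2 fun b =>
      (D_smooth hU hf a).continuousOn.inner (D_smooth hU hf b).continuousOn
  simp only [Matrix.inv_def, Matrix.smul_apply, Ring.inverse_eq_inv', smul_eq_mul]
  refine (((by fun_prop : Continuous fun A : Matrix (Fin m) (Fin m) ℝ => A.det).comp_continuousOn
    hM).inv₀ hg).mul ?_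
  exact (Continuous.matrix_elem (continuous_id.matrix_adjugate) i j).comp_continuousOn hM

theorem continuousOn_gradU (hU : IsOpen U) (hf : ContDiffOn ℝ ∞ f U)
    (hg : ∀ y ∈ U, (metric f y).det ≠ 0) {u w : E m → ℝ} (hu : ContDiffOn ℝ ∞ u U)
    (hw : ContDiffOn ℝ ∞ w U) : ContinuousOn (gradU f u w) U :=
  continuousOn_finsetSum _ fun i _ => continuousOn_finsetSum _ fun j _ =>
    (continuousOn_metric_inv hU hf hg i j).mul
      ((D_smooth hU hu i).continuousOn.mul (D_smooth hU hw j).continuousOn)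

theorem continuousOn_lapU (hU : IsOpen U) (hf : ContDiffOn ℝ ∞ f U)
    (hg : ∀ y ∈ U, (metric f y).det ≠ 0) {u : E m → ℝ} (hu : ContDiffOn ℝ ∞ u U) :
    ContinuousOn (lapU f u) U :=
  continuousOn_finsetSum _ fun i _ => continuousOn_finsetSum _ fun j _ =>
    (continuousOn_metric_inv hU hf hg i j).mul
      ((D_smooth hU (D_smooth hU hu i) j).continuousOn.sub
        (continuousOn_finsetSum _ fun k _ => continuousOn_finsetSum _ fun l _ =>
          (((D_smooth hU (D_smooth hU hf i) j).continuousOn.inner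
              (D_smooth hU hf k).continuousOn).mul (continuousOn_metric_inv hU hf hg k l)).mul
            (D_smooth hU hu l).continuousOn))

end Vale.Agent.P224.Gap.Glob
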