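import Vale.Agent.P224.Gap.Glob.Calc
import Vale.Agent.P224.Cover

/-!
P224, uniform volume gap: passing from charts to functions on the hypersurface.
-/

namespace Vale.Agent.P224.Gap.Glob

open Set Filter
open scoped RealInnerProductSpace Topology ContDiff Matrix Manifold

variable {m : ℕ} {M : Type*} [TopologicalSpace M] [ChartedSpace (E m) M] {F : M → E (m + 2)}

/-- A function in the preferred chart at `x`. -/
noncomputable def loc (u : M → ℝ) (x : M) : E m → ℝ := u ∘ (chartAt (E m) x).symm

/-- Smooth functions on the hypersurface. -/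
def SmOn (u : M → ℝ) : Prop := ∀ x : M, ContDiffOn ℝ ∞ (loc u x) (chartAt (E m) x).target

/-- The Laplacian, computed in the preferred chart. -/
noncomputable def lapM (F : M → E (m + 2)) (u : M → ℝ) (z : M) : ℝ :=
  lapU (rep F z) (loc u z) (chartAt (E m) z z)

/-- The inner product of gradients, computed in the preferred chart. -/
noncomputable def gradM (F : M → E (m + 2)) (u w : M → ℝ) (z : M) : ℝ :=
  gradU (rep F z) (loc u z) (loc w z) (chartAt (E m) z z)

/-- A unit normal at a point; only sign-free expressions in it are used. -/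
noncomputable def nu (F : M → E (m + 2)) (z : M) : E (m + 2) :=
  Classical.epsilon fun n => IsUnitNormal (rep F z) (chartAt (E m) z z) n

/-- The squared length of the second fundamental form. -/
noncomputable def sqA (F : M → E (m + 2)) (z : M) : ℝ :=
  normSq (rep F z) (chartAt (E m) z z) (nu F z)

/-- The change of coordinates between two preferred charts. -/
noncomputable def trans (x y : M) : E m → E m := chartAt (E m) x ∘ (chartAt (E m) y).symm

/-- The domain of the change of coordinates. -/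
noncomputable def transDom (x y : M) : Set (E m) :=
  (chartAt (E m) y).target ∩ (chartAt (E m) y).symm ⁻¹' (chartAt (E m) x).source

theorem isOpen_transDom (x y : M) : IsOpen (transDom (m := m) x y) :=
  (chartAt (E m) y).isOpen_inter_preimage_symm (chartAt (E m) x).open_source

theorem mapsTo_trans (x y : M) : MapsTo (trans (m := m) x y) (transDom x y) (chartAt (E m) x).target :=
  fun _ hp => (chartAt (E m) x).map_source hp.2

theorem mem_transDom {x y z : M} (hx : z ∈ (chartAt (E m) x).source)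
    (hy : z ∈ (chartAt (E m) y).source) : chartAt (E m) y z ∈ transDom (m := m) x y :=
  ⟨(chartAt (E m) y).map_source hy, by
    show (chartAt (E m) y).symm (chartAt (E m) y z) ∈ (chartAt (E m) x).source
    rwa [(chartAt (E m) y).left_inv hy]⟩

theorem trans_apply {x y z : M} (hy : z ∈ (chartAt (E m) y).source) :
    trans (m := m) x y (chartAt (E m) y z) = chartAt (E m) x z := by
  simp [trans, (chartAt (E m) y).left_inv hy]

theorem comp_trans {W : Type*} (u : M → W) (x y : M) :
    EqOn ((u ∘ (chartAt (E m) x).symm) ∘ trans x y) (u ∘ (chartAt (E m) y).symm) (transDom x y) :=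
  fun p hp => by simp [trans, (chartAt (E m) x).left_inv hp.2]

variable [IsManifold (𝓡 m) ∞ M]

theorem contDiffOn_trans (x y : M) : ContDiffOn ℝ ∞ (trans (m := m) x y) (transDom x y) :=
  contMDiffOn_iff_contDiffOn.1 ((contMDiffOn_chart (n := ∞) (I := 𝓡 m) (x := x)).comp
    ((contMDiffOn_chart_symm (n := ∞) (I := 𝓡 m) (x := y)).mono inter_subset_left) fun _ hp => hp.2)

theorem det_trans_ne {x y z : M} (hx : z ∈ (chartAt (E m) x).source)
    (hy : z ∈ (chartAt (E m) y).source) :
    (fderiv ℝ (trans (m := m) x y) (chartAt (E m) y z)).det ≠ 0 := by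
  have h1 := diffAt (isOpen_transDom x y) (contDiffOn_trans x y) (mem_transDom hx hy)
  have h2 := diffAt (isOpen_transDom y x) (contDiffOn_trans y x) (mem_transDom (z := z) hy hx)
  rw [← trans_apply (x := x) hy] at h2
  have e : trans (m := m) y x ∘ trans x y =ᶠ[𝓝 (chartAt (E m) y z)] id := by
    filter_upwards [(isOpen_transDom x y).mem_nhds (mem_transDom hx hy)] with p hp
    simp only [Function.comp_apply, trans, id_eq]
    rw [(chartAt (E m) x).left_inv hp.2, (chartAt (E m) y).right_inv hp.1]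
  have := e.fderiv_eq (𝕜 := ℝ)
  rw [fderiv_comp _ h2 h1, fderiv_id] at this
  have h3 := congrArg ContinuousLinearMap.det this
  simp only [ContinuousLinearMap.det, ContinuousLinearMap.toLinearMap_comp, LinearMap.det_comp] at h3
  exact fun h => by
    simp only [ContinuousLinearMap.det] at h
    rw [h, mul_zero] at h3
    exact zero_ne_one (h3.trans (by exact LinearMap.det_id))

/-- Chart independence. -/
theorem indep (hI : InvarianceStmt m) (hF : IsMinimalImmersion F) {x y z : M}
    (hx : z ∈ (chartAt (E m) x).source) (hy : z ∈ (chartAt (E m) y).source) :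
    (∀ u w : M → ℝ, SmOn (m := m) u → SmOn (m := m) w →
      gradU (rep F y) (loc u y) (loc w y) (chartAt (E m) y z) =
          gradU (rep F x) (loc u x) (loc w x) (chartAt (E m) x z) ∧
        lapU (rep F y) (loc u y) (chartAt (E m) y z) =
          lapU (rep F x) (loc u x) (chartAt (E m) x z)) ∧
      volDensity (rep F y) (chartAt (E m) y z) =
          |(fderiv ℝ (trans x y) (chartAt (E m) y z)).det| *
            volDensity (rep F x) (chartAt (E m) x z) ∧
      (∀ n, IsUnitNormal (rep F y) (chartAt (E m) y z) n ↔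
        IsUnitNormal (rep F x) (chartAt (E m) x z) n) ∧
      ∀ n, IsUnitNormal (rep F x) (chartAt (E m) x z) n →
        normSq (rep F y) (chartAt (E m) y z) n = normSq (rep F x) (chartAt (E m) x z) n := by
  set p := chartAt (E m) y z
  have hp := mem_transDom hx hy
  have hφp : trans x y p = chartAt (E m) x z := trans_apply hy
  obtain ⟨h1, h2, h3, h4⟩ := hI (chartAt (E m) x).target (rep F x) (transDom x y) (trans x y)
    (chartAt (E m) x).open_target (isOpen_transDom x y) (contDiffOn_rep hF x) (contDiffOn_trans x y)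
    (mapsTo_trans x y) (hF.immersion x) p hp (det_trans_ne hx hy)
  have e : ∀ {W : Type} (u : M → W), (u ∘ (chartAt (E m) y).symm) =ᶠ[𝓝 p]
      (u ∘ (chartAt (E m) x).symm) ∘ trans x y := fun u =>
    (eventuallyEq_of_mem ((isOpen_transDom x y).mem_nhds hp) (comp_trans u x y)).symm
  have eF : rep F y =ᶠ[𝓝 p] rep F x ∘ trans x y := e F
  rw [hφp] at h1 h2 h3 h4
  refine ⟨fun u w hu hw => ?_, ?_, fun n => ?_, fun n hn => ?_⟩
  · obtain ⟨g1, g2⟩ := h1 (loc u x) (loc w x) (hu x) (hw x)
    exact ⟨(gradU_congr eF (e u) (e w)).trans g1, (lapU_congr eF (e u)).trans g2⟩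
  · exact (volDensity_congr eF).trans h2
  · exact (isUnitNormal_congr eF n).trans (h3 n)
  · exact (normSq_congr eF n).trans (h4 n hn)

theorem gradM_eq (hI : InvarianceStmt m) (hF : IsMinimalImmersion F) {x z : M}
    (hz : z ∈ (chartAt (E m) x).source) {u w : M → ℝ} (hu : SmOn (m := m) u)
    (hw : SmOn (m := m) w) :
    gradM F u w z = gradU (rep F x) (loc u x) (loc w x) (chartAt (E m) x z) :=
  ((indep hI hF hz (mem_chart_source (E m) z)).1 u w hu hw).1

theorem lapM_eq (hI : InvarianceStmt m) (hF : IsMinimalImmersion F) {x z : M}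
    (hz : z ∈ (chartAt (E m) x).source) {u : M → ℝ} (hu : SmOn (m := m) u) :
    lapM F u z = lapU (rep F x) (loc u x) (chartAt (E m) x z) :=
  ((indep hI hF hz (mem_chart_source (E m) z)).1 u u hu hu).2

omit [IsManifold (𝓡 m) ∞ M] in
theorem normal_pm {U : Set (E m)} (hU : IsOpen U) {f : E m → E (m + 2)}
    (hf : ContDiffOn ℝ ∞ f U) (hs : ∀ p ∈ U, ‖f p‖ = 1) {p : E m} (hp : p ∈ U)
    (hg : (metric f p).det ≠ 0) {n k : E (m + 2)} (hn : IsUnitNormal f p n)
    (hk : IsUnitNormal f p k) : k = n ∨ k = -n := by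
  obtain ⟨n1, n2, n3⟩ := hn
  obtain ⟨k1, k2, k3⟩ := hk
  have hnn : ⟪n, n⟫ = 1 := by simp [n1]
  have hli : LinearIndependent ℝ
      (Fin.cons n (Fin.cons (f p) (fun i => D f i p)) : Fin (m + 2) → E (m + 2)) := by
    refine linearIndependent_finCons.2 ⟨linearIndependent_frame hU hf hs hp hg, fun h => ?_⟩
    have : ⟪n, n⟫ = 0 := by
      refine Submodule.span_induction (p := fun x _ => ⟪x, n⟫ = 0) ?_ (inner_zero_left _)
        (fun x y _ _ hx hy => by rw [inner_add_left, hx, hy, add_zero])
        (fun c x _ hx => by rw [real_inner_smul_left, hx, mul_zero]) h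
      rintro x ⟨i, rfl⟩
      exact Fin.cases n2 n3 i
    linarith
  have htop := hli.span_eq_top_of_card_eq_finrank (by simp)
  set w := k - ⟪n, k⟫ • n with hw
  have : ∀ x : E (m + 2), ⟪x, w⟫ = 0 := fun x => by
    refine Submodule.span_induction (p := fun x _ => ⟪x, w⟫ = 0) ?_ (inner_zero_left _)
      (fun x y _ _ hx hy => by rw [inner_add_left, hx, hy, add_zero])
      (fun c x _ hx => by rw [real_inner_smul_left, hx, mul_zero])
      (htop ▸ Submodule.mem_top : x ∈ _)
    rintro _ ⟨i, rfl⟩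
    induction' i using Fin.cases with i
    · simp [hw, inner_sub_right, real_inner_smul_right, n1]
    induction' i using Fin.cases with i
    · simp [hw, inner_sub_right, real_inner_smul_right, n2, k2]
    · simp [hw, inner_sub_right, real_inner_smul_right, n3, k3]
  have hkn : k = ⟪n, k⟫ • n := sub_eq_zero.1 (inner_self_eq_zero.1 (this w))
  have : |⟪n, k⟫| = 1 := by
    have := congrArg norm hkn
    rw [norm_smul, k1, n1, mul_one] at this
    exact this.symm
  rcases abs_eq (by norm_num : (0 : ℝ) ≤ 1) |>.1 this with h | h <;> rw [h] at hkn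
  · exact Or.inl (by simpa using hkn)
  · exact Or.inr (by simpa using hkn)

theorem exists_chartNormal (hF : IsMinimalImmersion F) (x : M) :
    ∃ ν : E m → E (m + 2), ContDiffOn ℝ ∞ ν (chartAt (E m) x).target ∧
      ∀ p ∈ (chartAt (E m) x).target, IsUnitNormal (rep F x) p (ν p) :=
  exists_normal (chartAt (E m) x).open_target (contDiffOn_rep hF x) (fun _ _ => hF.sphere _)
    (hF.immersion x)

theorem nu_spec (hF : IsMinimalImmersion F) (z : M) :
    IsUnitNormal (rep F z) (chartAt (E m) z z) (nu F z) := by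
  obtain ⟨ν, -, hn⟩ := exists_chartNormal hF z
  exact Classical.epsilon_spec (p := fun n => IsUnitNormal (rep F z) (chartAt (E m) z z) n)
    ⟨_, hn _ (mem_chart_target (E m) z)⟩

omit [TopologicalSpace M] [ChartedSpace (E m) M] [IsManifold (𝓡 m) ∞ M] in
theorem normSq_neg (f : E m → E (m + 2)) (p : E m) (n : E (m + 2)) :
    normSq f p (-n) = normSq f p n := by
  have : secondForm f p (-n) = -secondForm f p n := by
    ext i j
    simp [secondForm]
  simp [normSq, shapeOp, this]

/-- The sign-free expressions in the normal agree with those of any chart. -/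
theorem nu_eq (hI : InvarianceStmt m) (hF : IsMinimalImmersion F) {x z : M}
    (hz : z ∈ (chartAt (E m) x).source) {n : E (m + 2)}
    (hn : IsUnitNormal (rep F x) (chartAt (E m) x z) n) :
    (∀ a c : E (m + 2), ⟪nu F z, a⟫ * ⟪nu F z, c⟫ = ⟪n, a⟫ * ⟪n, c⟫) ∧
      sqA F z = normSq (rep F x) (chartAt (E m) x z) n := by
  obtain ⟨-, -, h3, h4⟩ := indep hI hF hz (mem_chart_source (E m) z)
  have hn' := (h3 n).2 hn
  rcases normal_pm (chartAt (E m) z).open_target (contDiffOn_rep hF z) (fun _ _ => hF.sphere _)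
    (mem_chart_target (E m) z) (hF.immersion z _ (mem_chart_target (E m) z)) hn' (nu_spec hF z)
    with e | e
  · exact ⟨fun a c => by rw [e], by rw [sqA, e, h4 n hn]⟩
  · exact ⟨fun a c => by rw [e]; simp, by rw [sqA, e, normSq_neg, h4 n hn]⟩

theorem loc_nu (hI : InvarianceStmt m) (hF : IsMinimalImmersion F) {x : M}
    {ν : E m → E (m + 2)} (hn : ∀ p ∈ (chartAt (E m) x).target, IsUnitNormal (rep F x) p (ν p))
    (a c : E (m + 2)) :
    EqOn (loc (fun z => ⟪nu F z, a⟫ * ⟪nu F z, c⟫) x) (fun p => ⟪ν p, a⟫ * ⟪ν p, c⟫)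
        (chartAt (E m) x).target ∧
      EqOn (loc (sqA F) x) (fun p => normSq (rep F x) p (ν p)) (chartAt (E m) x).target := by
  have h : ∀ p ∈ (chartAt (E m) x).target, _ := fun p hp =>
    nu_eq hI hF (z := (chartAt (E m) x).symm p) ((chartAt (E m) x).map_target hp) (n := ν p)
      (by rw [(chartAt (E m) x).right_inv hp]; exact hn p hp)
  refine ⟨fun p hp => (h p hp).1 a c, fun p hp => ?_⟩
  have := (h p hp).2
  rwa [(chartAt (E m) x).right_inv hp] at this

omit [IsManifold (𝓡 m) ∞ M] in
theorem SmOn.const (c : ℝ) : SmOn (m := m) fun _ : M => c := fun _ => contDiffOn_const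

omit [IsManifold (𝓡 m) ∞ M] in
theorem SmOn.comp {u w : M → ℝ} (hu : SmOn (m := m) u) (hw : SmOn (m := m) w) {K : ℝ × ℝ → ℝ}
    (hK : ContDiff ℝ ∞ K) : SmOn (m := m) fun z => K (u z, w z) := fun x =>
  hK.comp_contDiffOn ((hu x).prodMk (hw x))

omit [IsManifold (𝓡 m) ∞ M] in
theorem continuous_of_chart {u : M → ℝ}
    (h : ∀ x : M, ∃ v : E m → ℝ, ContinuousOn v (chartAt (E m) x).target ∧
      ∀ z ∈ (chartAt (E m) x).source, u z = v (chartAt (E m) x z)) : Continuous u := by
  refine continuous_iff_continuousAt.2 fun x => ?_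
  obtain ⟨v, hv, he⟩ := h x
  exact ((hv.comp (chartAt (E m) x).continuousOn (chartAt (E m) x).mapsTo).congr he).continuousAt
    ((chartAt (E m) x).open_source.mem_nhds (mem_chart_source (E m) x))

omit [IsManifold (𝓡 m) ∞ M] in
theorem SmOn.continuous {u : M → ℝ} (hu : SmOn (m := m) u) : Continuous u :=
  continuous_of_chart fun x => ⟨loc u x, (hu x).continuousOn,
    fun z hz => by simp [loc, (chartAt (E m) x).left_inv hz]⟩

theorem continuous_lapM (hI : InvarianceStmt m) (hF : IsMinimalImmersion F) {u : M → ℝ}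
    (hu : SmOn (m := m) u) : Continuous (lapM F u) :=
  continuous_of_chart (m := m) fun x => ⟨lapU (rep F x) (loc u x),
    continuousOn_lapU (chartAt (E m) x).open_target (contDiffOn_rep hF x) (hF.immersion x) (hu x),
    fun _ hz => lapM_eq hI hF hz hu⟩

theorem continuous_gradM (hI : InvarianceStmt m) (hF : IsMinimalImmersion F) {u w : M → ℝ}
    (hu : SmOn (m := m) u) (hw : SmOn (m := m) w) : Continuous (gradM F u w) :=
  continuous_of_chart (m := m) fun x => ⟨gradU (rep F x) (loc u x) (loc w x),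
    continuousOn_gradU (chartAt (E m) x).open_target (contDiffOn_rep hF x) (hF.immersion x) (hu x)
      (hw x), fun _ hz => gradM_eq hI hF hz hu hw⟩

theorem smOn_height (hF : IsMinimalImmersion F) (a : E (m + 2)) :
    SmOn (m := m) fun z => ⟪F z, a⟫ := fun x => (contDiffOn_rep hF x).inner ℝ contDiffOn_const

theorem smOn_nu (hI : InvarianceStmt m) (hF : IsMinimalImmersion F) (a c : E (m + 2)) :
    SmOn (m := m) fun z => ⟪nu F z, a⟫ * ⟪nu F z, c⟫ := fun x => by
  obtain ⟨ν, hν, hn⟩ := exists_chartNormal hF x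
  exact ((hν.inner ℝ contDiffOn_const).mul (hν.inner ℝ contDiffOn_const)).congr
    (loc_nu hI hF hn a c).1

theorem smOn_sqA (hI : InvarianceStmt m) (hP : PointStmt m) (hF : IsMinimalImmersion F) :
    SmOn (m := m) (sqA F) := fun x => by
  obtain ⟨ν, hν, hn⟩ := exists_chartNormal hF x
  exact (hP _ (rep F x) ν (chartAt (E m) x).open_target (contDiffOn_rep hF x) hν
    (fun _ _ => hF.sphere _) (hF.immersion x) hn
    (fun p hp => hF.minimal x p hp _ (hn p hp))).1.congr (loc_nu hI hF hn 0 0).2

/-- The pointwise identities on the hypersurface. -/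
theorem identities (hI : InvarianceStmt m) (hP : PointStmt m) (hF : IsMinimalImmersion F) (z : M) :
    0 ≤ sqA F z ∧
      (∀ a c : E (m + 2), lapM F (fun y => ⟪F y, a⟫) z = -(m : ℝ) * ⟪F z, a⟫ ∧
        gradM F (fun y => ⟪F y, a⟫) (fun y => ⟪F y, c⟫) z =
          ⟪a, c⟫ - ⟪F z, a⟫ * ⟪F z, c⟫ - ⟪nu F z, a⟫ * ⟪nu F z, c⟫) ∧
      (∀ v : E (m + 2), ‖v‖ = 1 →
        lapM F (fun y => 1 - ⟪nu F y, v⟫ * ⟪nu F y, v⟫) z ≤ 2 * sqA F z ∧
        2 * sqA F z - 4 * sqA F z * (1 - ⟪nu F z, v⟫ * ⟪nu F z, v⟫) ≤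
          lapM F (fun y => 1 - ⟪nu F y, v⟫ * ⟪nu F y, v⟫) z) ∧
      2 * sqA F z * ((m : ℝ) - sqA F z) ≤ lapM F (sqA F) z := by
  obtain ⟨ν, hν, hn⟩ := exists_chartNormal hF z
  set T := (chartAt (E m) z).target
  set p := chartAt (E m) z z
  have hT : IsOpen T := (chartAt (E m) z).open_target
  have hp : p ∈ T := mem_chart_target (E m) z
  have hf := contDiffOn_rep hF z
  obtain ⟨hS, hpt⟩ := hP T (rep F z) ν hT hf hν (fun _ _ => hF.sphere _) (hF.immersion z) hn
    (fun q hq => hF.minimal z q hq _ (hn q hq))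
  obtain ⟨h0, hh, hk, hsim⟩ := hpt p hp
  obtain ⟨hnu, hA⟩ := nu_eq hI hF (mem_chart_source (E m) z) (n := ν p) (hn p hp)
  have hFz : rep F z p = F z := by
    simp [rep, p]
  refine ⟨hA ▸ h0, fun a c => ?_, fun v hv => ?_, ?_⟩
  · obtain ⟨e1, e2⟩ := hh a c
    rw [hFz] at e1 e2
    rw [hnu a c]
    exact ⟨e1, e2⟩
  · obtain ⟨e1, e2⟩ := hk v
    rw [hFz, hv] at e2
    set w : E m → ℝ := fun y => ⟪ν y, v⟫ with hw
    have hws : ContDiffOn ℝ ∞ w T := hν.inner ℝ contDiffOn_const
    set K : ℝ × ℝ → ℝ := fun x => 1 - x.1 * x.2 with hK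
    have hKs : ContDiff ℝ ∞ K := by fun_prop
    set N : ℝ × ℝ → (ℝ × ℝ →L[ℝ] ℝ) := fun x =>
      -(x.1 • ContinuousLinearMap.snd ℝ ℝ ℝ + x.2 • ContinuousLinearMap.fst ℝ ℝ ℝ)
    have hd : ∀ x, HasFDerivAt K (N x) x := fun x =>
      (((ContinuousLinearMap.fst ℝ ℝ ℝ).hasFDerivAt.mul
        (ContinuousLinearMap.snd ℝ ℝ ℝ).hasFDerivAt).const_sub 1)
    have hdK : fderiv ℝ K = N := funext fun x => (hd x).fderiv
    have hdd : ∀ x, HasFDerivAt N
        (-((ContinuousLinearMap.fst ℝ ℝ ℝ).smulRight (ContinuousLinearMap.snd ℝ ℝ ℝ) +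
          (ContinuousLinearMap.snd ℝ ℝ ℝ).smulRight (ContinuousLinearMap.fst ℝ ℝ ℝ))) x := fun x =>
      (((ContinuousLinearMap.fst ℝ ℝ ℝ).hasFDerivAt (x := x)).smul_const _ |>.add
        (((ContinuousLinearMap.snd ℝ ℝ ℝ).hasFDerivAt (x := x)).smul_const _)).neg
    have he : loc (fun y => 1 - ⟪nu F y, v⟫ * ⟪nu F y, v⟫) z =ᶠ[𝓝 p] fun y => K (w y, w y) :=
      eventuallyEq_of_mem (hT.mem_nhds hp) fun y hy => by
        have := (loc_nu hI hF hn v v).1 hy
        simp only [loc, Function.comp_apply, hK, hw] at this ⊢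
        rw [this]
    have hL : lapM F (fun y => 1 - ⟪nu F y, v⟫ * ⟪nu F y, v⟫) z =
        2 * sqA F z * (w p * w p) - 2 * gradU (rep F z) w w p := by
      rw [lapM, lapU_congr EventuallyEq.rfl he, lapU_comp K hKs hT hws hws hp]
      simp only [iteratedFDeriv_two_apply, Matrix.cons_val_zero, Matrix.cons_val_one, hdK,
        (hdd _).fderiv, N]
      rw [e1, hA]
      simp only [hw, neg_apply, add_apply,
        smul_apply, ContinuousLinearMap.smulRight_apply,
        ContinuousLinearMap.coe_fst', ContinuousLinearMap.coe_snd', smul_eq_mul]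
      ring
    have hG := gradU_self_nonneg (f := rep F z) (hF.immersion z p hp) w
    have hw1 : w p * w p ≤ 1 := by
      have := abs_real_inner_le_norm (ν p) v
      rw [(hn p hp).1, hv, one_mul] at this
      simp only [hw]
      nlinarith [abs_le.1 this]
    rw [← hA] at e2 h0
    rw [hL, hnu v v]
    constructor
    · nlinarith
    · simp only [hw] at e2 ⊢
      nlinarith [mul_nonneg h0 (sq_nonneg ⟪F z, v⟫)]
  · rw [hA, lapM, lapU_congr EventuallyEq.rfl
      (eventuallyEq_of_mem (hT.mem_nhds hp) (loc_nu hI hF hn 0 0).2)]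
    exact hsim

omit [IsManifold (𝓡 m) ∞ M] in
/-- At a maximum the Laplacian is nonpositive. -/
theorem lapM_nonpos_of_max (hF : IsMinimalImmersion F) {u : M → ℝ} (hu : SmOn (m := m) u) {z : M}
    (hmax : ∀ y, u y ≤ u z) : lapM F u z ≤ 0 :=
  lapU_nonpos_of_isLocalMax (chartAt (E m) z).open_target
    (hF.immersion z _ (mem_chart_target (E m) z)) (hu z) (mem_chart_target (E m) z)
    (Eventually.of_forall fun y => by
      simp only [loc, Function.comp_apply, (chartAt (E m) z).left_inv (mem_chart_source (E m) z)]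
      exact hmax _)

end Vale.Agent.P224.Gap.Glob
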