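import Vale.Agent.P224.Gap.Glob.Chart
import Vale.Agent.P224.VolFinite

/-!
P224, uniform volume gap: the Riemannian measure of an immersion and Green's formula.
-/

namespace Vale.Agent.P224.Gap.Glob

open Set Filter MeasureTheory
open scoped RealInnerProductSpace Topology ContDiff Matrix Manifold ENNReal

variable {m : ℕ} {M : Type} [TopologicalSpace M] [ChartedSpace (E m) M] [MeasurableSpace M]
  [BorelSpace M] {F : M → E (m + 2)}

/-- The density of the volume in the chart at `x`. -/
noncomputable def dens (F : M → E (m + 2)) (x : M) (p : E m) : ℝ≥0∞ :=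
  ENNReal.ofReal (volDensity (rep F x) p)

/-- The volume carried by one chart. -/
noncomputable def chartMeasure (F : M → E (m + 2)) (x : M) : Measure M :=
  Measure.map (chartAt (E m) x).symm
    ((volume.restrict (chartAt (E m) x).target).withDensity (dens F x))

theorem measurableSet_target_preimage (x : M) {S : Set M} (hS : MeasurableSet S) :
    MeasurableSet ((chartAt (E m) x).target ∩ (chartAt (E m) x).symm ⁻¹' S) := by
  classical
  have hT := (chartAt (E m) x).open_target.measurableSet
  have hg : Measurable ((chartAt (E m) x).target.piecewise (chartAt (E m) x).symm fun _ => x) :=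
    (chartAt (E m) x).continuousOn_symm.measurable_piecewise continuousOn_const hT
  convert hT.inter (hg hS) using 1
  ext p
  by_cases hp : p ∈ (chartAt (E m) x).target <;> simp [Set.piecewise, hp]

theorem measurableSet_image (x : M) {A : Set (E m)} (hA : MeasurableSet A)
    (hAT : A ⊆ (chartAt (E m) x).target) : MeasurableSet ((chartAt (E m) x).symm '' A) := by
  classical
  have hT := (chartAt (E m) x).open_source.measurableSet
  have hg : Measurable ((chartAt (E m) x).source.piecewise (chartAt (E m) x) fun _ => 0) :=
    (chartAt (E m) x).continuousOn.measurable_piecewise continuousOn_const hT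
  have e : (chartAt (E m) x).symm '' A = (chartAt (E m) x).source ∩
      ((chartAt (E m) x).source.piecewise (chartAt (E m) x) fun _ => 0) ⁻¹' A := by
    ext z
    constructor
    · rintro ⟨p, hp, rfl⟩
      refine ⟨(chartAt (E m) x).map_target (hAT hp), ?_⟩
      simp [Set.piecewise, (chartAt (E m) x).map_target (hAT hp), (chartAt (E m) x).right_inv (hAT hp),
        hp]
    · rintro ⟨hz, hz'⟩
      simp only [mem_preimage, Set.piecewise, hz, if_true] at hz'
      exact ⟨_, hz', (chartAt (E m) x).left_inv hz⟩
  rw [e]
  exact hT.inter (hg hA)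

variable [IsManifold (𝓡 m) ∞ M]

omit [MeasurableSpace M] [BorelSpace M] in
theorem continuousOn_volDensity (hF : IsMinimalImmersion F) (x : M) :
    ContinuousOn (volDensity (rep F x)) (chartAt (E m) x).target := by
  have hd := fun i => (D_smooth (chartAt (E m) x).open_target (contDiffOn_rep hF x) i).continuousOn
  have hdet : ContinuousOn (fun p => (metric (rep F x) p).det) (chartAt (E m) x).target := by
    simp only [Matrix.det_apply']
    exact continuousOn_finsetSum _ fun σ _ => continuousOn_const.mul
      (continuousOn_finsetProd _ fun a _ => (hd (σ a)).inner (hd a))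
  exact Real.continuous_sqrt.comp_continuousOn hdet

omit [MeasurableSpace M] [BorelSpace M] in
theorem aemeasurable_dens (hF : IsMinimalImmersion F) (x : M) :
    AEMeasurable (dens F x) (volume.restrict (chartAt (E m) x).target) :=
  ((continuousOn_volDensity hF x).aemeasurable (chartAt (E m) x).open_target.measurableSet).ennreal_ofReal

omit [IsManifold (𝓡 m) ∞ M] in
theorem aemeasurable_symm (F : M → E (m + 2)) (x : M) :
    AEMeasurable (chartAt (E m) x).symm
      ((volume.restrict (chartAt (E m) x).target).withDensity (dens F x)) :=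
  ((chartAt (E m) x).continuousOn_symm.aemeasurable
    (chartAt (E m) x).open_target.measurableSet).mono_ac (withDensity_absolutelyContinuous _ _)

omit [IsManifold (𝓡 m) ∞ M] in
theorem chartMeasure_apply (F : M → E (m + 2)) (x : M) {S : Set M} (hS : MeasurableSet S) :
    chartMeasure F x S =
      ∫⁻ p in (chartAt (E m) x).target ∩ (chartAt (E m) x).symm ⁻¹' S, dens F x p := by
  rw [chartMeasure, Measure.map_apply_of_aemeasurable (aemeasurable_symm F x) hS,
    withDensity_apply', Measure.restrict_restrict' (chartAt (E m) x).open_target.measurableSet,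
    inter_comm]

theorem chartMeasure_eq (hI : InvarianceStmt m) (hF : IsMinimalImmersion F) (x y : M) {S : Set M}
    (hS : MeasurableSet S) (hx : S ⊆ (chartAt (E m) x).source)
    (hy : S ⊆ (chartAt (E m) y).source) : chartMeasure F x S = chartMeasure F y S := by
  rw [chartMeasure_apply F x hS, chartMeasure_apply F y hS]
  set A := (chartAt (E m) y).target ∩ (chartAt (E m) y).symm ⁻¹' S with hA
  have hAV : A ⊆ transDom x y := fun p hp => ⟨hp.1, hx hp.2⟩
  have e : (chartAt (E m) x).target ∩ (chartAt (E m) x).symm ⁻¹' S = trans x y '' A := by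
    ext p
    constructor
    · rintro ⟨hp, hpS⟩
      refine ⟨chartAt (E m) y ((chartAt (E m) x).symm p), ⟨(chartAt (E m) y).map_source (hy hpS), ?_⟩,
        ?_⟩
      · show (chartAt (E m) y).symm _ ∈ S
        rw [(chartAt (E m) y).left_inv (hy hpS)]; exact hpS
      · rw [trans_apply (hy hpS), (chartAt (E m) x).right_inv hp]
    · rintro ⟨q, hq, rfl⟩
      refine ⟨(chartAt (E m) x).map_source (hx hq.2), ?_⟩
      show (chartAt (E m) x).symm (trans x y q) ∈ S
      rw [trans, Function.comp_apply, (chartAt (E m) x).left_inv (hx hq.2)]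
      exact hq.2
  have hinj : InjOn (trans x y) A := fun p hp q hq h => by
    have h1 := (chartAt (E m) x).injOn (hx hp.2) (hx hq.2) h
    exact (chartAt (E m) y).symm.injOn hp.1 hq.1 h1
  rw [e, lintegral_image_eq_lintegral_abs_det_fderiv_mul volume
    (measurableSet_target_preimage y hS) (f' := fderiv ℝ (trans x y)) (fun p hp =>
      (diffAt (isOpen_transDom x y) (contDiffOn_trans x y) (hAV hp)).hasFDerivAt.hasFDerivWithinAt)
    hinj]
  refine setLIntegral_congr_fun (measurableSet_target_preimage y hS) fun p hp => ?_
  have h := (indep hI hF (z := (chartAt (E m) y).symm p) (hx hp.2)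
    ((chartAt (E m) y).map_target hp.1)).2.1
  rw [(chartAt (E m) y).right_inv hp.1] at h
  rw [dens, dens, ← ENNReal.ofReal_mul (abs_nonneg _), h]
  rfl

/-- The Riemannian measure of the immersion. -/
theorem exists_measure (hI : InvarianceStmt m) [CompactSpace M] (hF : IsMinimalImmersion F) :
    ∃ μ : Measure M, IsFiniteMeasure μ ∧ ENNReal.ofReal (μ.real univ) ≤ vol F ∧
      ∀ x : M, μ.restrict (chartAt (E m) x).source = chartMeasure F x := by
  classical
  obtain ⟨t, ht⟩ := isCompact_univ.elim_finite_subcover (fun x : M => (chartAt (E m) x).source)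
    (fun x => (chartAt (E m) x).open_source) (fun z _ => mem_iUnion_of_mem z (mem_chart_source _ z))
  set c : Fin t.card → M := fun i => (t.equivFin.symm i).1
  set P : Fin t.card → Set M := disjointed fun i => (chartAt (E m) (c i)).source with hP
  have hPm : ∀ i, MeasurableSet (P i) :=
    fun i => disjointedRec (fun t j h => h.diff (chartAt (E m) (c j)).open_source.measurableSet)
      (chartAt (E m) (c i)).open_source.measurableSet
  have hPs : ∀ i, P i ⊆ (chartAt (E m) (c i)).source := fun i => disjointed_subset _ i
  have hPu : ⋃ i, P i = univ := by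
    rw [hP, iUnion_disjointed, eq_univ_iff_forall]
    intro z
    obtain ⟨y, hy, hz⟩ := mem_iUnion₂.1 (ht (mem_univ z))
    exact mem_iUnion.2 ⟨t.equivFin ⟨y, hy⟩, by simpa [c] using hz⟩
  set μ : Measure M := ∑ i, (chartMeasure F (c i)).restrict (P i) with hμ
  have key : ∀ x S, MeasurableSet S → S ⊆ (chartAt (E m) x).source →
      μ S = chartMeasure F x S := fun x S hS hx => by
    rw [hμ, Measure.finsetSum_apply]
    simp only [Measure.restrict_apply hS]
    rw [Finset.sum_congr rfl fun i _ => chartMeasure_eq hI hF (c i) x (hS.inter (hPm i))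
      (inter_subset_right.trans (hPs i)) (inter_subset_left.trans hx)]
    rw [← tsum_fintype (L := .unconditional _), ← measure_iUnion
      ((disjoint_disjointed _).mono fun i j h => h.mono inter_subset_right inter_subset_right)
      (fun i => hS.inter (hPm i)), ← inter_iUnion, hPu, inter_univ]
  have hres : ∀ x : M, μ.restrict (chartAt (E m) x).source = chartMeasure F x := fun x => by
    refine Measure.ext fun S hS => ?_
    rw [Measure.restrict_apply hS,
      key x _ (hS.inter (chartAt (E m) x).open_source.measurableSet) inter_subset_right,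
      chartMeasure_apply F x (hS.inter (chartAt (E m) x).open_source.measurableSet),
      chartMeasure_apply F x hS]
    congr 2
    ext p
    exact ⟨fun h => ⟨h.1, h.2.1⟩, fun h => ⟨h.1, h.2, (chartAt (E m) x).map_target h.1⟩⟩
  have hle : μ univ ≤ vol F := by
    refine le_iInf fun n => le_iInf fun d => le_iInf fun A => le_iInf fun hA => le_iInf fun hcov => ?_
    calc μ univ ≤ μ (⋃ i, (chartAt (E m) (d i)).symm '' A i) :=
          measure_mono fun z _ => mem_iUnion.2 (hcov z)
      _ ≤ ∑ i, μ ((chartAt (E m) (d i)).symm '' A i) := measure_iUnion_fintype_le μ _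
      _ ≤ _ := Finset.sum_le_sum fun i _ => by
          rw [key (d i) _ (measurableSet_image _ (hA i).1 (hA i).2)
            (image_subset_iff.2 fun p hp => (chartAt (E m) (d i)).map_target ((hA i).2 hp)),
            chartMeasure_apply F _ (measurableSet_image _ (hA i).1 (hA i).2)]
          refine lintegral_mono_set fun p hp => ?_
          obtain ⟨hp1, q, hq, hqp⟩ := hp
          rwa [← (chartAt (E m) (d i)).symm.injOn ((hA i).2 hq) hp1 hqp]
  have hfin : μ univ < ⊤ := hle.trans_lt (vol_lt_top hF)
  refine ⟨μ, ⟨hfin⟩, ?_, hres⟩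
  rwa [measureReal_def, ENNReal.ofReal_toReal hfin.ne]

theorem lintegral_source (hF : IsMinimalImmersion F) {μ : Measure M} {x : M}
    (hμ : μ.restrict (chartAt (E m) x).source = chartMeasure F x) {h : M → ℝ≥0∞} (hh : Measurable h) :
    ∫⁻ z in (chartAt (E m) x).source, h z ∂μ =
      ∫⁻ p in (chartAt (E m) x).target, dens F x p * h ((chartAt (E m) x).symm p) := by
  rw [hμ, chartMeasure, lintegral_map' hh.aemeasurable (aemeasurable_symm F x),
    lintegral_withDensity_eq_lintegral_mul₀ (g := fun p => h ((chartAt (E m) x).symm p))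
      (aemeasurable_dens hF x) (hh.comp_aemeasurable ((chartAt (E m) x).continuousOn_symm.aemeasurable
        (chartAt (E m) x).open_target.measurableSet))]
  rfl

theorem integral_of_support (hF : IsMinimalImmersion F) {μ : Measure M} {x : M}
    (hμ : μ.restrict (chartAt (E m) x).source = chartMeasure F x) {h : M → ℝ} (hh : Continuous h)
    (h0 : ∀ z, z ∉ (chartAt (E m) x).source → h z = 0) :
    ∫ z, h z ∂μ =
      ∫ p in (chartAt (E m) x).target, h ((chartAt (E m) x).symm p) * volDensity (rep F x) p := by
  rw [← setIntegral_eq_integral_of_forall_compl_eq_zero h0, hμ, chartMeasure,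
    integral_map (aemeasurable_symm F x) hh.aestronglyMeasurable,
    integral_withDensity_eq_integral_toReal_smul₀ (aemeasurable_dens hF x)
      (by simp [dens])]
  refine integral_congr_ae (Eventually.of_forall fun p => ?_)
  show (dens F x p).toReal • h _ = _
  have hv : 0 ≤ volDensity (rep F x) p := Real.sqrt_nonneg _
  rw [dens, ENNReal.toReal_ofReal hv, smul_eq_mul, mul_comm]

/-- Green's formula. -/
theorem green (hI : InvarianceStmt m) (hDiv : DivergenceStmt m) [CompactSpace M] [T2Space M]
    (hF : IsMinimalImmersion F) {μ : Measure M} [IsFiniteMeasure μ]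
    (hμ : ∀ x : M, μ.restrict (chartAt (E m) x).source = chartMeasure F x) {f g : M → ℝ}
    (hf : SmOn (m := m) f) (hg : SmOn (m := m) g) :
    ∫ z, (f z * lapM F g z + gradM F f g z) ∂μ = 0 := by
  classical
  obtain ⟨t, ht⟩ := isCompact_univ.elim_finite_subcover (fun x : M => (chartAt (E m) x).source)
    (fun x => (chartAt (E m) x).open_source) (fun z _ => mem_iUnion_of_mem z (mem_chart_source _ z))
  obtain ⟨ρ, hρ⟩ := SmoothPartitionOfUnity.exists_isSubordinate (𝓡 m) (s := (univ : Set M))
    isClosed_univ (fun i : t => (chartAt (E m) (i : M)).source)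
    (fun i => (chartAt (E m) (i : M)).open_source) (fun z hz => by
      obtain ⟨y, hy, hzy⟩ := mem_iUnion₂.1 (ht hz)
      exact mem_iUnion.2 ⟨⟨y, hy⟩, hzy⟩)
  have hρs : ∀ i, SmOn (m := m) (ρ i) := fun i y =>
    contMDiffOn_iff_contDiffOn.1 ((ρ i).contMDiff.comp_contMDiffOn
      (contMDiffOn_chart_symm (n := ∞) (I := 𝓡 m) (x := y)))
  have hone : ∀ z, ∑ i, ρ i z = 1 := fun z => by
    rw [← finsum_eq_sum_of_fintype]; exact ρ.sum_eq_one (mem_univ z)
  set u : t → M → ℝ := fun i z => ρ i z * f z with hu
  have hus : ∀ i, SmOn (m := m) (u i) := fun i x => (hρs i x).mul (hf x)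
  have hsplit : ∀ z, f z * lapM F g z + gradM F f g z =
      ∑ i, (u i z * lapM F g z + gradM F (u i) g z) := fun z => by
    have e : loc (m := m) f z = fun p => ∑ i, loc (m := m) (u i) z p := funext fun p => by
      simp only [loc, hu, Function.comp_apply]
      rw [← Finset.sum_mul, hone, one_mul]
    have eg : gradM F f g z = ∑ i, gradM F (u i) g z := by
      rw [gradM, e, gradU_sum Finset.univ (chartAt (E m) z).open_target (fun i => hus i z) _
        (mem_chart_target (E m) z)]
      rfl
    rw [Finset.sum_add_distrib, ← Finset.sum_mul, eg]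
    simp only [hu]
    rw [← Finset.sum_mul, hone, one_mul]
  have hc : ∀ i, Continuous fun z => u i z * lapM F g z + gradM F (u i) g z := fun i =>
    ((hus i).continuous.mul (continuous_lapM hI hF hg)).add (continuous_gradM hI hF (hus i) hg)
  have hint : ∀ {h : M → ℝ}, Continuous h → Integrable h μ := fun hh =>
    hh.integrable_of_hasCompactSupport (HasCompactSupport.of_compactSpace _)
  simp only [hsplit]
  rw [integral_finsetSum _ fun i _ => hint (hc i)]
  refine Finset.sum_eq_zero fun i _ => ?_
  set x : M := (i : M)
  set C := tsupport (ρ i)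
  have hCs : C ⊆ (chartAt (E m) x).source := hρ i
  have hz : ∀ z, z ∉ C → u i =ᶠ[𝓝 z] fun _ => 0 := fun z hz => by
    filter_upwards [(isClosed_tsupport _).isOpen_compl.mem_nhds hz] with y hy
    simp [hu, image_eq_zero_of_notMem_tsupport hy]
  rw [integral_of_support hF (hμ x) (hc i) fun z hzs => by
    have h := hz z fun hc' => hzs (hCs hc')
    have h2 : loc (u i) z =ᶠ[𝓝 (chartAt (E m) z z)] fun _ => 0 := by
      have := (chartAt (E m) z).continuousAt_symm (mem_chart_target (E m) z)
      rw [ContinuousAt, (chartAt (E m) z).left_inv (mem_chart_source (E m) z)] at this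
      exact this.eventually h
    rw [h.eq_of_nhds, gradM, gradU_eq_zero h2]
    simp]
  set K := chartAt (E m) x '' C
  have hK : IsCompact K := (isClosed_tsupport _).isCompact.image_of_continuousOn
    ((chartAt (E m) x).continuousOn.mono hCs)
  have hKT : K ⊆ (chartAt (E m) x).target :=
    image_subset_iff.2 fun z hz => (chartAt (E m) x).map_source (hCs hz)
  set T := (chartAt (E m) x).target
  set w : E m → ℝ := T.indicator (loc (u i) x)
  have hwT : EqOn w (loc (u i) x) T := fun p hp => indicator_of_mem hp _
  have hd := hDiv T (rep F x) (chartAt (E m) x).open_target (contDiffOn_rep hF x) (hF.immersion x)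
    (loc g x) w (hg x) ((hus i x).congr hwT) ⟨K, hK, hKT, fun p hp => by
      by_cases hpT : p ∈ T
      · rw [hwT hpT]
        exact (hz ((chartAt (E m) x).symm p) fun h => hp ⟨_, h,
          (chartAt (E m) x).right_inv hpT⟩).eq_of_nhds
      · exact indicator_of_notMem hpT _⟩
  rw [← hd]
  refine setIntegral_congr_fun (chartAt (E m) x).open_target.measurableSet fun p hp => ?_
  have hs := (chartAt (E m) x).map_target hp
  rw [lapM_eq hI hF hs hg, gradM_eq hI hF hs (hus i) hg, (chartAt (E m) x).right_inv hp, hwT hp,
    gradU_congr (p := p) EventuallyEq.rfl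
      ((eventuallyEq_of_mem ((chartAt (E m) x).open_target.mem_nhds hp) hwT)) EventuallyEq.rfl]
  rfl

end Vale.Agent.P224.Gap.Glob
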